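import Vale.Agent.P183M.IF
import Vale.Agent.P183CF.CB2

/-!
From a model with coordinates to a classical cover.
-/

set_option autoImplicit false
set_option linter.all false

namespace Vale.Agent.P183BR

open Matrix Subgroup Vale.Agent.P183NK Vale.Agent.P183M

section coord

variable {p : ℕ} [Fact p.Prime] {V : Type} [AddCommGroup V] [Module (ZMod p) V] (S : FS p V)
  {R : Type} [CommRing R] {d : ℕ} (κ : V ≃+ (Fin d → R))

/-- matrices as endomorphisms -/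
def Psi : Matrix (Fin d) (Fin d) R →+* S.E where
  toFun m := (κ.symm.toAddMonoidHom.comp ((mulVecLin m).toAddMonoidHom.comp
    κ.toAddMonoidHom)).toZModLinearMap p
  map_one' := LinearMap.ext fun v => by simp
  map_mul' m n := LinearMap.ext fun v => by simp
  map_zero' := LinearMap.ext fun v => by simp
  map_add' m n := LinearMap.ext fun v => by simp [add_mulVec]

lemma κ_Psi (m : Matrix (Fin d) (Fin d) R) (v : V) : κ (Psi S κ m v) = m *ᵥ κ v :=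
  κ.apply_symm_apply _

variable {S κ}

lemma eq_Psi {x : S.E} {m : Matrix (Fin d) (Fin d) R} :
    x = Psi S κ m ↔ ∀ v, κ (x v) = m *ᵥ κ v :=
  ⟨fun e v => by rw [e, κ_Psi], fun e => LinearMap.ext fun v => κ.injective (by rw [e, κ_Psi])⟩

lemma Psi_inj : Function.Injective (Psi S κ) := fun m n e => Matrix.ext_iff_mulVec.2 fun y => by
  rw [← κ.apply_symm_apply y, ← κ_Psi S, e, κ_Psi]

lemma semi {x : S.E} {φ : R → R} (h : ∀ r, x * Psi S κ (r • 1) = Psi S κ (φ r • 1) * x) :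
    ∃ P : Matrix (Fin d) (Fin d) R, ∀ v, κ (x v) = P *ᵥ (φ ∘ κ v) := by
  refine ⟨Matrix.of fun i a => κ (x (κ.symm (ee a))) i, fun v => ?_⟩
  have h1 : v = ∑ a, Psi S κ (κ v a • 1) (κ.symm (ee a)) := κ.injective (by
    ext i
    simp [map_sum, κ_Psi, smul_mulVec, ee, one_apply])
  conv_lhs => rw [h1]
  ext i
  simp only [map_sum, ← Module.End.mul_apply, h]
  simp [κ_Psi, smul_mulVec, mulVec, dotProduct, mul_comm]

lemma z1 {x : S.E} {r : R} : (∀ v, κ (x v) = r • κ v) ↔ x = Psi S κ (r • 1) := by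
  simp [eq_Psi, smul_mulVec]

lemma zi (a : Fin d) {r s : R} (e : Psi S κ (r • 1) = Psi S κ (s • 1)) : r = s := by
  simpa using congrFun (congrFun (Psi_inj e) a) a

lemma Psi_mul (r s : R) : Psi S κ ((r * s) • 1) = Psi S κ (r • 1) * Psi S κ (s • 1) := by
  rw [← map_mul, smul_mul_assoc, one_mul, smul_smul]

/-- semilinear similitudes in coordinates -/
lemma gam_coord [Finite V] (a : Fin d) {Z : S.NR} (h : S.Scal Z 1) {σ : R → R}
    (hZ : ∀ x : S.E, x ∈ Z ↔ ∃ r : R, x = Psi S κ (r • 1))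
    (hst : ∀ r : R, S.st (Psi S κ (r • 1)) = Psi S κ (σ r • 1)) {γ : S.Eˣ} (hγ : γ ∈ S.gam Z) :
    ∃ (φ : R ≃+* R) (P P' : Matrix (Fin d) (Fin d) R), (∀ r, φ (σ r) = σ (φ r)) ∧
      ∀ m, γ.1 * Psi S κ m * γ⁻¹.1 = Psi S κ (P * m.map φ * P') := by
  have ex : ∀ γ ∈ S.gam Z, ∀ r : R, ∃ s : R, γ.1 * Psi S κ (r • 1) * γ⁻¹.1 = Psi S κ (s • 1) :=
    fun γ hγ r => (hZ _).1 (FS.gam_Z h hγ ((hZ _).2 ⟨r, rfl⟩))
  choose! f hf using ex
  have fi : ∀ γ ∈ S.gam Z, ∀ r, f γ⁻¹ (f γ r) = r := fun γ hγ r => zi a (by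
    rw [← hf _ (inv_mem hγ), ← hf _ hγ]
    simp [mul_assoc])
  let φ : R ≃+* R :=
    { toFun := f γ
      invFun := f γ⁻¹
      left_inv := fi γ hγ
      right_inv := fun r => by simpa using fi γ⁻¹ (inv_mem hγ) r
      map_mul' := fun r s => zi a (by
        rw [← hf _ hγ, Psi_mul, Psi_mul, ← hf _ hγ, ← hf _ hγ]
        simp [mul_assoc])
      map_add' := fun r s => zi a (by
        rw [← hf _ hγ, add_smul, add_smul, map_add, map_add, ← hf _ hγ, ← hf _ hγ, mul_add,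
          add_mul]) }
  have se : ∀ γ ∈ S.gam Z, ∃ P : Matrix (Fin d) (Fin d) R, ∀ v, κ (γ.1 v) = P *ᵥ (f γ ∘ κ v) :=
    fun γ hγ => semi fun r => by
      rw [← hf _ hγ]
      simp [mul_assoc]
  obtain ⟨P, hP⟩ := se γ hγ
  obtain ⟨Q, hQ⟩ := se _ (inv_mem hγ)
  refine ⟨φ, P, Q.map φ, fun r => zi (S := S) (κ := κ) a ?_, fun m => eq_Psi.2 fun v => ?_⟩
  · show Psi S κ (f γ (σ r) • 1) = Psi S κ (σ (f γ r) • 1)
    rw [← hf _ hγ, ← hst, ← hst, ← hf _ hγ, FS.gam_st h hγ (h.le_cent ((hZ _).2 ⟨r, rfl⟩))]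
  rw [Module.End.mul_apply, Module.End.mul_apply, hP, κ_Psi, hQ, mulVec_mulVec, mul_assoc,
    ← Matrix.map_mul (L := m) (M := Q) (f := φ), ← mulVec_mulVec (κ v)]
  refine congrArg (P *ᵥ ·) (funext fun i => ?_)
  refine (RingHom.map_mulVec (φ : R →+* R) (m * Q) _ i).trans ?_
  exact congrArg (fun y => ((m * Q).map φ *ᵥ y) i) (funext fun j => φ.apply_symm_apply _)

lemma full_coord {Z : S.NR} (hZ : ∀ x : S.E, x ∈ Z ↔ ∃ r : R, x = Psi S κ (r • 1)) {E : Type}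
    [Group E] {ι : E →* S.Eˣ} {ρ : E →* Matrix (Fin d) (Fin d) R}
    (hρ : ∀ g, (ι g).1 = Psi S κ (ρ g)) {X : Subgroup E}
    (hX : S.spanR (X.map ι) = S.cent Z 1) : Subring.closure (ρ '' (X : Set E)) = ⊤ := by
  refine eq_top_iff.2 fun m _ => ?_
  have h2 : Psi S κ m ∈ S.spanR (X.map ι) := hX.ge (FS.mem_cent_one.2 fun z hz => by
    obtain ⟨r, rfl⟩ := (hZ z).1 hz
    rw [← map_mul, ← map_mul, mul_smul_comm, smul_mul_assoc, mul_one, one_mul])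
  have h3 : S.spanR (X.map ι) ≤
      ((Subring.closure (ρ '' (X : Set E))).map (Psi S κ)).toNonUnitalSubring := by
    refine NonUnitalSubring.closure_le.2 ?_
    rintro _ ⟨_, ⟨k, hk, rfl⟩, rfl⟩
    exact ⟨_, Subring.subset_closure ⟨k, hk, rfl⟩, (hρ k).symm⟩
  obtain ⟨n, hn, e⟩ := h3 h2
  rwa [← Psi_inj e]

end coord

lemma unit_of {G E R : Type} [Group G] [Group E] [CommRing R] {d : ℕ} (a : Fin d) {θ : E →* G}
    {ρ : E →* Matrix (Fin d) (Fin d) R} (hk : ∀ g, θ g = 1 ↔ ∃ c : R, ρ g = c • 1) {x y : E}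
    (e : θ x = θ y) : ∃ c : Rˣ, ρ x = (c : R) • ρ y := by
  obtain ⟨c, hc⟩ := (hk (x * y⁻¹)).1 (by rw [map_mul, map_inv, e, mul_inv_cancel])
  obtain ⟨c', hc'⟩ := (hk (y * x⁻¹)).1 (by rw [map_mul, map_inv, e, mul_inv_cancel])
  have h1 : ρ (x * y⁻¹) * ρ (y * x⁻¹) = 1 := by simp [← map_mul]
  rw [hc, hc'] at h1
  have h3 : c * c' = 1 := by simpa [mul_comm] using congrFun (congrFun h1 a) a
  refine ⟨⟨c, c', h3, (mul_comm _ _).trans h3⟩, ?_⟩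
  rw [← one_mul (ρ y), ← smul_mul_assoc, ← hc, ← map_mul, inv_mul_cancel_right]

theorem cv_of {G : Type} [Group G] {T : Subgroup G} (M : Model T) {R F0 E : Type} [CommRing R]
    [Finite R] [Field F0] [Group E] [Finite E] {d : ℕ} (D : Dat E R F0 d) (hD : Kind M.p R D)
    (κ : M.V ≃+ (Fin d → R)) (hZ : ∀ x : M.S.E, x ∈ M.Z ↔ ∃ r : R, ∀ v, κ (x v) = r • κ v)
    (hst : ∀ r : R, ∀ v, κ (M.S.st (Psi M.S κ (r • 1)) v) = D.σ r • κ v)
    (ι : E →* M.S.Eˣ) (hι : ι.range = M.Ω) (hρ : ∀ g v, κ ((ι g).1 v) = D.ρ g *ᵥ κ v) :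
    ∃ C : Cv M.p T, C.D.m = D.m ∧ (∀ X, M.Full X → C.Full X) ∧ (M.Lifts → C.Lifts) := by
  replace hZ := fun x => (hZ x).trans (exists_congr fun _ => z1 (S := M.S))
  replace hst := fun r => (z1 (S := M.S)).1 (hst r)
  obtain ⟨ι', rfl⟩ : ∃ ι' : E →* M.Ω, ι = M.Ω.subtype.comp ι' :=
    ⟨ι.codRestrict _ fun g => hι ▸ ⟨g, rfl⟩, rfl⟩
  have hs : Function.Surjective ι' := fun ω => by
    obtain ⟨g, hg⟩ := hι.ge ω.2
    exact ⟨g, Subtype.ext hg⟩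
  have hρ' : ∀ g, (ι' g).1.1 = Psi M.S κ (D.ρ g) := fun g => eq_Psi.2 (hρ g)
  have hk : ∀ g, M.θ.comp ι' g = 1 ↔ ∃ c : R, D.ρ g = c • 1 := fun g => by
    rw [MonoidHom.comp_apply, M.ker, hZ, hρ']
    exact exists_congr fun c => Psi_inj.eq_iff
  have hl : M.Lifts → ∀ g : G, (∀ t ∈ T, g * t * g⁻¹ ∈ T) → ∃ (φ : R ≃+* R)
      (P P' : Matrix (Fin d) (Fin d) R), P * P' = 1 ∧ P' * P = 1 ∧ (∀ r, φ (D.σ r) = D.σ (φ r)) ∧
        ∀ ω ω' : E, M.θ.comp ι' ω' = g * M.θ.comp ι' ω * g⁻¹ →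
          ∃ c : Rˣ, D.ρ ω' = (c : R) • (P * (D.ρ ω).map φ * P') := fun hL g hg => by
    obtain ⟨γ, hγ, hγ'⟩ := hL g hg
    obtain ⟨φ, P, Q, hφ, key⟩ := gam_coord D.z M.scal hZ hst hγ
    have h1 : P * Q = 1 := Psi_inj (S := M.S) (κ := κ) (by simpa using (key 1).symm)
    refine ⟨φ, P, Q, h1, mul_eq_one_comm.1 h1, hφ, fun ω ω' e => ?_⟩
    obtain ⟨k, hk'⟩ := hs ⟨_, FS.nm_gam_om M.scal γ hγ _ (ι' ω).2⟩
    have h4 : D.ρ k = P * (D.ρ ω).map φ * Q := Psi_inj (S := M.S) (κ := κ) (by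
      rw [← key, ← hρ', ← hρ', hk']
      rfl)
    rw [← h4]
    exact unit_of D.z hk (e.trans (hγ' (ι' ω) (ι' k) (congrArg Subtype.val hk')).symm)
  refine ⟨⟨E, R, F0, d, D, hD, M.θ.comp ι', ?_, hk⟩, rfl, fun X hX => ?_, hl⟩
  · rw [MonoidHom.range_comp, MonoidHom.range_eq_top.2 hs, ← MonoidHom.range_eq_map, M.range]
  · refine full_coord hZ (ι := M.Ω.subtype.comp ι') hρ' (Eq.trans ?_ hX.1)
    rw [map_commutator, ← comap_comap, ← Subgroup.map_map, map_comap_eq_self_of_surjective hs]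
    rfl

end Vale.Agent.P183BR
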