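import Vale.Agent.P183BR.SLc
import Vale.Agent.P183CF.Br

/-!
The bridge from models to classical covers.
-/

namespace Vale.Agent.P183BR

open Vale.Agent.P183NK Vale.Agent.P183M

theorem cdlx : CDLX := by
  intro p F _ _ _ d hp hd
  obtain ⟨m, rfl⟩ : ∃ m, d = m + 1 := ⟨d - 1, by omega⟩
  have : Fact p.Prime := ⟨hp⟩
  exact ⟨F, _, slD F m (by omega), slD_cdl _ (by omega), fun _ => rfl⟩

theorem br : BR := br_of cdlx

end Vale.Agent.P183BR
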