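import Vale.Agent.P183K.Lift.Base
import Vale.Agent.P183XC.SL
import Vale.Agent.P240.H195.SL4
import Vale.Agent.P092.H899.Simple

/-!
Generation and transitivity properties of special linear groups.
-/

set_option autoImplicit false
set_option linter.all false

namespace Vale.Agent.P183BR

open Matrix Subgroup Module Vale.Agent.P183M Vale.Agent.P240.H195 Vale.Agent.P183XC
  Vale.Agent.P183K.Lift

lemma sb_sub {L : Type*} [Group L] {r : ℕ} {B N U : Subgroup L} {S S' : Set L} (h : SB r B N U S)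
    (h1 : S' ⊆ S) (h2 : ∀ s ∈ S, ∃ s' ∈ S', s'⁻¹ * s ∈ B ⊓ N) : SB r B N U S' :=
  { h with
    sub := fun s hs => h.sub s (h1 hs)
    span := le_antisymm (h.span.le.trans (sup_le ((closure_le _).2 fun s hs => by
        obtain ⟨s', hs', e⟩ := h2 s hs
        simpa using mul_mem (mem_sup_left (subset_closure hs')) (mem_sup_right (S := closure S') e))
        le_sup_right)) (sup_le ((closure_le _).2 fun s hs => h.sub s (h1 hs)) inf_le_right)
    sq := fun s hs => h.sq s (h1 hs)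
    mul := fun s hs => h.mul s (h1 hs)
    thick := fun s hs => h.thick s (h1 hs)
    strong := fun s hs => h.strong s (h1 hs)
    nonempty := h.nonempty.elim fun s hs => (h2 s hs).imp fun _ e => e.1 }

variable {F : Type} [Field F]

/-- stabilisers of a vector and of a functional are generated by transvections -/
theorem tor_sl {n : Type} [Fintype n] [DecidableEq n] {H : Subgroup (SpecialLinearGroup n F)}
    {z l : n} {c1 c2 : Prop} (hH : ∀ v f h, (c1 → f z = 0) → (c2 → v l = 0) → tv v f h ∈ H)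
    (K : Finset n) (g : SpecialLinearGroup n F) (h0 : c1 → z ∈ K)
    (h1 : ∀ j ∈ K, g.1 *ᵥ Pi.single j 1 = Pi.single j 1)
    (h2 : c2 → ∀ y, (g.1 *ᵥ y) l = y l) : g ∈ H := by
  have mv : ∀ (K : Finset n) (g : SpecialLinearGroup n F) (a : n) (y f : n → F), (c1 → z ∈ K) →
      (∀ j ∈ K, g.1 *ᵥ Pi.single j 1 = Pi.single j 1) → (c2 → ∀ y, (g.1 *ᵥ y) l = y l) →
      f ⬝ᵥ (g.1 *ᵥ Pi.single a 1) = 1 → f ⬝ᵥ y = 1 → (∀ j ∈ K, f j = 0) →
      (c2 → y l = (Pi.single a 1 : n → F) l) → ∃ g' : SpecialLinearGroup n F, (g' ∈ H → g ∈ H) ∧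
        (∀ j ∈ K, g'.1 *ᵥ Pi.single j 1 = Pi.single j 1) ∧ (c2 → ∀ y, (g'.1 *ᵥ y) l = y l) ∧
          g'.1 *ᵥ Pi.single a 1 = y := by
    intro K g a y f h0 h1 h2 e1 e2 e3 e4
    have e5 : c2 → (y - g.1 *ᵥ Pi.single a 1) l = 0 := fun c => by
      rw [Pi.sub_apply, e4 c, h2 c, sub_self]
    have e6 : f ⬝ᵥ (y - g.1 *ᵥ Pi.single a 1) = 0 := by rw [dotProduct_sub, e1, e2, sub_self]
    have e7 : ∀ x, (tv _ f e6 * g).1 *ᵥ x =
        g.1 *ᵥ x + (f ⬝ᵥ (g.1 *ᵥ x)) • (y - g.1 *ᵥ Pi.single a 1) := fun x => by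
      rw [show (tv _ f e6 * g).1 = (1 + vecMulVec _ f) * g.1 from rfl, ← mulVec_mulVec, add_mulVec,
        one_mulVec, vecMulVec_mulVec, op_smul_eq_smul]
    refine ⟨tv _ f e6 * g, fun h => (H.mul_mem_cancel_left
      (hH _ _ e6 (fun c => e3 z (h0 c)) e5)).1 h, fun j hj => ?_, fun c x => ?_, ?_⟩
    · rw [e7, h1 j hj, dotProduct_single, e3 j hj]
      simp
    · rw [e7, Pi.add_apply, Pi.smul_apply, e5 c, h2 c, smul_zero, add_zero]
    · rw [e7, e1, one_smul, add_sub_cancel]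
  induction hk : Kᶜ.card generalizing K g with
  | zero =>
    rw [Finset.card_eq_zero, Finset.compl_eq_empty_iff] at hk
    have : g = 1 := Subtype.ext (Matrix.ext fun i j => by
      simpa [one_apply, Pi.single_apply] using congrFun (h1 j (hk ▸ Finset.mem_univ j)) i)
    exact this ▸ one_mem H
  | succ k ih =>
    obtain ⟨a, ha, hl⟩ : ∃ a, a ∉ K ∧ (c2 → a ≠ l → l ∈ K) := by
      by_cases h : l ∈ K
      · obtain ⟨a, ha⟩ : Kᶜ.Nonempty := Finset.card_pos.1 (by omega)
        exact ⟨a, Finset.mem_compl.1 ha, fun _ _ => h⟩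
      · exact ⟨l, h, fun _ e => absurd rfl e⟩
    have fin : ∀ (g : SpecialLinearGroup n F) (f : n → F),
        (∀ j ∈ K, g.1 *ᵥ Pi.single j 1 = Pi.single j 1) → (c2 → ∀ y, (g.1 *ᵥ y) l = y l) →
        f ⬝ᵥ (g.1 *ᵥ Pi.single a 1) = 1 → f a = 1 → (∀ j ∈ K, f j = 0) → g ∈ H := by
      intro g f h1 h2 e1 e2 e3
      obtain ⟨g', k1, k2, k3, k4⟩ := mv K g a (Pi.single a 1) f h0 h1 h2 e1 (by simp [e2]) e3
        fun _ => rfl
      refine k1 (ih (insert a K) g' (fun c => Finset.mem_insert_of_mem (h0 c)) (fun j hj => ?_) k3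
        (by rw [Finset.compl_insert, Finset.card_erase_of_mem (Finset.mem_compl.2 ha)]; omega))
      rcases Finset.mem_insert.1 hj with rfl | hj
      exacts [k4, k2 j hj]
    have cA : ∀ (g : SpecialLinearGroup n F) (b : n), b ∉ K → b ≠ a →
        (∀ j ∈ K, g.1 *ᵥ Pi.single j 1 = Pi.single j 1) → (c2 → ∀ y, (g.1 *ᵥ y) l = y l) →
        g.1 b a ≠ 0 → g ∈ H := fun g b hb hba h1 h2 e =>
      fin g (Pi.single a 1 + Pi.single b ((1 - g.1 a a) / g.1 b a)) h1 h2 (by simp [e])
        (by simp [hba]) fun j hj => by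
          simp [ne_of_mem_of_not_mem hj ha, ne_of_mem_of_not_mem hj hb]
    by_cases hA : ∃ b, b ∉ K ∧ b ≠ a ∧ g.1 b a ≠ 0
    · obtain ⟨b, hb, hba, e⟩ := hA
      exact cA g b hb hba h1 h2 e
    push Not at hA
    by_cases hc : g.1 a a = 1
    · exact fin g (Pi.single a 1) h1 h2 (by simp [hc]) (by simp) fun j hj => by
        simp [ne_of_mem_of_not_mem hj ha]
    have hc0 : g.1 a a ≠ 0 := fun e => by
      have e1 : g.1 *ᵥ (g.1 *ᵥ Pi.single a 1) = g.1 *ᵥ Pi.single a 1 := by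
        conv_lhs => rw [pi_eq_sum_univ' (g.1 *ᵥ Pi.single a 1)]
        conv_rhs => rw [pi_eq_sum_univ' (g.1 *ᵥ Pi.single a 1)]
        rw [mulVec_sum]
        refine Finset.sum_congr rfl fun j _ => ?_
        by_cases hj : j ∈ K
        · rw [mulVec_smul, h1 j hj]
        · by_cases hja : j = a
          · simp [hja, e]
          · simp [hA j hj hja]
      have e2 := congrFun (mulVec_injective_of_isUnit ((isUnit_iff_isUnit_det _).2
        (by rw [g.2]; exact isUnit_one)) e1) a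
      simp [e] at e2
    obtain ⟨b, hb, hba⟩ : ∃ b, b ∉ K ∧ b ≠ a := by
      by_contra hn
      push Not at hn
      have e1 : g.1 = updateCol 1 a fun i => g.1 i a := Matrix.ext fun i j => by
        by_cases hj : j = a
        · simp [hj]
        · simpa [hj, one_apply, Pi.single_apply] using
            congrFun (h1 j (by_contra fun h => hj (hn j h))) i
      have e2 := g.2
      rw [e1, ← cramer_apply, cramer_one] at e2
      exact hc e2
    obtain ⟨g', k1, k2, k3, k4⟩ := mv K g a (g.1 *ᵥ Pi.single a 1 + Pi.single b 1)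
      (Pi.single a (g.1 a a)⁻¹) h0 h1 h2 (by simp [hc0]) (by simp [hc0, hba.symm])
      (fun j hj => by simp [ne_of_mem_of_not_mem hj ha]) fun c => by
        have e : a ≠ l := fun e => hc (by simpa [e] using h2 c (Pi.single a 1))
        rw [Pi.add_apply, h2 c, Pi.single_eq_of_ne (ne_of_mem_of_not_mem (hl c e) hb), add_zero]
    refine k1 (cA g' b hb hba k2 k3 ?_)
    simpa [hA b hb hba] using fun e => by simpa [e, hA b hb hba] using congrFun k4 b

lemma ext_li {V : Type} [AddCommGroup V] [Module F V] [FiniteDimensional F V] (E : Submodule F V)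
    {j k : ℕ} (hjk : j ≤ k) (hk : k ≤ finrank F E) {v : ℕ → V}
    (hv : LinearIndependent F fun i : Fin j => v i) (hE : ∀ i < j, v i ∈ E) :
    ∃ v' : ℕ → V, (∀ i < j, v' i = v i) ∧ (LinearIndependent F fun i : Fin k => v' i) ∧
      ∀ i < k, v' i ∈ E := by
  induction hjk with
  | refl => exact ⟨v, fun _ _ => rfl, hv, hE⟩
  | @step k hjk ih =>
    obtain ⟨w, h1, h2, h3⟩ := ih (by omega)
    obtain ⟨x, hx, hx'⟩ : ∃ x ∈ E, x ∉ Submodule.span F (Set.range fun i : Fin k => w i) := by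
      by_contra hn
      push Not at hn
      have := Submodule.finrank_mono (show E ≤ _ from hn)
      rw [finrank_span_eq_card h2, Fintype.card_fin] at this
      omega
    have hjk' : j ≤ k := hjk
    refine ⟨Function.update w k x, fun i hi => by rw [Function.update_of_ne (by omega), h1 i hi],
      ?_, fun i hi => ?_⟩
    · convert linearIndependent_finSnoc.2 ⟨h2, hx'⟩ with i
      induction i using Fin.lastCases with
      | last => simp
      | cast i => simp [Function.update_of_ne i.2.ne]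
    · by_cases e : i = k
      · simpa [e] using hx
      · rw [Function.update_of_ne e]
        exact h3 i (by omega)

variable {m : ℕ}

lemma exists_cols {v : ℕ → Fin (m + 1) → F} (hv : LinearIndependent F fun i : Fin (m + 1) => v i) :
    ∃ g : SLm m F, ∀ a : Fin (m + 1), ∃ c : F, c ≠ 0 ∧ g.1 *ᵥ ee a = c • v a := by
  let M : Matrix (Fin (m + 1)) (Fin (m + 1)) F := Matrix.of fun i a => v a i
  have h0 : M.det ≠ 0 :=
    ((isUnit_iff_isUnit_det _).1 (linearIndependent_cols_iff_isUnit.1 hv)).ne_zero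
  refine ⟨⟨M.updateCol 0 ((M.det)⁻¹ • fun i => M i 0), by
    rw [det_updateCol_smul, updateCol_eq_self, inv_mul_cancel₀ h0]⟩, fun a => ?_⟩
  by_cases ha : a = 0
  · exact ⟨_, inv_ne_zero h0, funext fun i => by simp [mulVec_ee, ha, M]⟩
  · exact ⟨1, one_ne_zero, funext fun i => by simp [mulVec_ee, ha, M]⟩

theorem witt_sl (E : Submodule F (Fin (m + 1) → F)) : ∃ (g : SLm m F) (j : ℕ), j ≤ m + 1 ∧
    E = (Co F fun a => a.val < j).map (Matrix.toLin' g.1) := by
  have hj : finrank F E ≤ m + 1 := by simpa using E.finrank_le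
  obtain ⟨v, -, h1, h2⟩ := ext_li E (Nat.zero_le _) le_rfl (v := 0) linearIndependent_empty_type
    (by simp)
  obtain ⟨w, h3, h4, -⟩ := ext_li ⊤ hj (by simp) h1 (by simp)
  obtain ⟨g, hg⟩ := exists_cols h4
  refine ⟨g, _, hj, le_antisymm ?_ ?_⟩
  · rw [← Submodule.eq_of_le_of_finrank_eq (S₁ := Submodule.span F
      (Set.range fun i : Fin (finrank F E) => v i)) (S₂ := E) (Submodule.span_le.2 (by
        rintro _ ⟨i, rfl⟩
        exact h2 i i.2)) (by rw [finrank_span_eq_card h1, Fintype.card_fin])]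
    conv_rhs => rw [finrank_span_eq_card h1, Fintype.card_fin]
    refine Submodule.span_le.2 ?_
    rintro _ ⟨i, rfl⟩
    obtain ⟨c, hc, e⟩ := hg ⟨i, by omega⟩
    refine ⟨c⁻¹ • ee ⟨i, by omega⟩, Submodule.smul_mem _ _ fun a ha => ee_ne ?_, ?_⟩
    · rintro rfl
      exact ha i.2
    · rw [map_smul, toLin'_apply, e, h3 _ i.2, inv_smul_smul₀ hc]
  · rintro _ ⟨x, hx, rfl⟩
    rw [pi_eq_sum_univ' x, map_sum]
    refine E.sum_mem fun a _ => ?_
    by_cases ha : a.val < finrank F E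
    · obtain ⟨c, -, e⟩ := hg a
      rw [h3 _ ha] at e
      rw [map_smul]
      exact E.smul_mem _ (e.symm ▸ E.smul_mem _ (h2 _ ha) : g.1 *ᵥ ee a ∈ E)
    · rw [hx a ha, zero_smul, map_zero]
      exact E.zero_mem

theorem pair_sl (hm : 0 < m) {u w : Fin (m + 1) → F} (h : w ⬝ᵥ u = 0) :
    ∃ (g : SLm m F) (r : F), u = r • g.1 *ᵥ ee 0 ∧ ∀ a, a ≠ Fin.last m → w ⬝ᵥ (g.1 *ᵥ ee a) = 0 := by
  let E := LinearMap.ker (dotProductBilin F F w)
  have hE : m ≤ finrank F E := by
    have h1 := LinearMap.finrank_range_add_finrank_ker (dotProductBilin F F w)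
    have h2 := (LinearMap.range (dotProductBilin F F w)).finrank_le
    simp only [finrank_self, finrank_fintype_fun_eq_card, Fintype.card_fin] at h1 h2
    show m ≤ finrank F (LinearMap.ker (dotProductBilin F F w))
    omega
  obtain ⟨j, hj, h1, h2⟩ : ∃ j ≤ 1, (LinearIndependent F fun _ : Fin j => u) ∧ (j = 0 → u = 0) := by
    by_cases hu : u = 0
    · exact ⟨0, zero_le_one, linearIndependent_empty_type, fun _ => hu⟩
    · exact ⟨1, le_rfl, linearIndependent_unique_iff.2 hu, by simp⟩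
  obtain ⟨v, h3, h4, h5⟩ := ext_li E (hj.trans hm) hE (v := fun _ => u) h1 fun _ _ => h
  obtain ⟨v', h6, h7, -⟩ := ext_li ⊤ (Nat.le_succ m) (by simp) h4 (by simp)
  obtain ⟨g, hg⟩ := exists_cols h7
  obtain ⟨c, hc, e⟩ := hg 0
  refine ⟨g, if j = 0 then 0 else c⁻¹, ?_, fun a ha => ?_⟩
  · split_ifs with h0
    · rw [h2 h0, zero_smul]
    · rw [e, inv_smul_smul₀ hc, Fin.val_zero, h6 0 hm, h3 0 (by omega)]
  · obtain ⟨c, -, e⟩ := hg a
    have := Fin.val_lt_last ha
    rw [e, h6 _ this, dotProduct_smul, show w ⬝ᵥ v a = 0 from h5 _ this, smul_zero]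

variable [Finite F]

theorem gen_U {H : Subgroup (SLm m F)} (hH : ∀ (a b : Fin (m + 1)) (h : a < b) c, tx h.ne c ∈ H) :
    UU m F ≤ H := by
  classical
  intro u hu
  induction hk : (Finset.univ.filter fun x : Fin (m + 1) × Fin (m + 1) =>
    x.1 < x.2 ∧ u.1 x.1 x.2 ≠ 0).card using Nat.strong_induction_on generalizing u with
  | _ k ih =>
  by_cases h0 : (Finset.univ.filter fun x : Fin (m + 1) × Fin (m + 1) =>
    x.1 < x.2 ∧ u.1 x.1 x.2 ≠ 0).Nonempty
  swap
  · have : u = 1 := sl_ext fun i j => by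
      rw [sl_one]
      rcases lt_trichotomy i j with h | rfl | h
      · rw [if_neg h.ne]
        exact by_contra fun e => h0 ⟨(i, j), by simp [h, e]⟩
      · rw [if_pos rfl, hu.2]
      · rw [if_neg h.ne', hu.1 i j h]
    exact this ▸ one_mem H
  obtain ⟨⟨a, b⟩, h1, h2⟩ := Finset.exists_max_image _ (fun x => x.2) h0
  simp only [Finset.mem_filter, Finset.mem_univ, true_and] at h1 h2
  have h3 : ∀ j, j ≠ b → u.1 b j = 0 := fun j hj => by
    rcases lt_or_gt_of_ne hj with h | h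
    · exact hu.1 b j h
    · exact by_contra fun e => h.not_ge (h2 (b, j) ⟨h, e⟩)
  refine (H.mul_mem_cancel_left (hH a b h1.1 (-u.1 a b))).1 (ih _ ?_
    (mul_mem ⟨tx_up h1.1 _, tx_diag _ _⟩ hu) rfl)
  rw [← hk]
  refine Finset.card_lt_card ⟨fun x hx => ?_, fun e => ?_⟩
  · simp only [Finset.mem_filter, Finset.mem_univ, true_and, tx_mul_apply] at hx ⊢
    refine ⟨hx.1, fun e => hx.2 ?_⟩
    split_ifs with h4
    · by_cases h5 : x.2 = b
      · rw [h4, h5] at e
        exact absurd e h1.2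
      · rw [e, h3 _ h5, mul_zero, add_zero]
    · rw [e, add_zero]
  · have := @e (a, b) (by simpa using h1)
    simp [tx_mul_apply, hu.2 b] at this

theorem ncl_tx {a b : Fin (m + 1)} (h : a ≠ b) :
    normalClosure (Set.range fun c : F => tx h c) = ⊤ := by
  have : Nontrivial (Fin (m + 1)) := ⟨a, b, h⟩
  refine P092.H899.eq_top_of_e _ fun i j hij c => ?_
  obtain ⟨w, rfl, rfl⟩ : ∃ w : Equiv.Perm (Fin (m + 1)), w a = i ∧ w b = j :=
    ⟨Equiv.swap (Equiv.swap a i b) j * Equiv.swap a i, by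
      rw [Equiv.Perm.mul_apply, Equiv.swap_apply_left, Equiv.swap_apply_of_ne_of_ne _ hij]
      exact fun e => h ((Equiv.swap a i).injective ((Equiv.swap_apply_left _ _).trans e)), by simp⟩
  obtain ⟨n, hn⟩ := exists_mon (F := F) w
  have e := mon_conj_tx hn h hij ((n.1 (w a) a)⁻¹ * c * n.1 (w b) b)
  rw [show n.1 (w a) a * ((n.1 (w a) a)⁻¹ * c * n.1 (w b) b) * (n.1 (w b) b)⁻¹ = c by
    field_simp [mon_ne hn a, mon_ne hn b]] at e
  show tx hij c ∈ _
  rw [← e]
  exact normalClosure_normal.conj_mem _ (subset_normalClosure (Set.mem_range_self _)) n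

end Vale.Agent.P183BR
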