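import Vale.Agent.P183BR.SLa

/-!
The datum of the special linear group acting on the natural module and its dual.
-/

set_option autoImplicit false
set_option linter.all false

namespace Vale.Agent.P183BR

open Matrix Subgroup Module Vale.Agent.P183M Vale.Agent.P240.H195 Vale.Agent.P183XC
  Vale.Agent.P183K.Lift Vale.Agent.P183CR

variable {F : Type} [Field F] {d m : ℕ}

/-- the transpose with respect to the second diagonal -/
def fl (M : Matrix (Fin d) (Fin d) F) : Matrix (Fin d) (Fin d) F := of fun a b => M b.rev a.rev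

/-- a pair of matrices -/
def pm (A B : Matrix (Fin d) (Fin d) F) : Matrix (Fin d) (Fin d) (F × F) :=
  of fun a b => (A a b, B a b)

/-- the pairing -/
def pr2 (u w : Fin d → F) : F := u ⬝ᵥ fun a => w a.rev

lemma fl_mul (M N : Matrix (Fin d) (Fin d) F) : fl (M * N) = fl N * fl M := by
  ext a b
  simp only [fl, of_apply, mul_apply]
  exact Fintype.sum_equiv Fin.revPerm _ _ fun k => by simp [mul_comm]

lemma fl_one : fl (1 : Matrix (Fin d) (Fin d) F) = 1 := by
  ext a b
  simp [fl, one_apply, eq_comm]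

lemma pm_mul (A B A' B' : Matrix (Fin d) (Fin d) F) : pm (A * A') (B * B') = pm A B * pm A' B' := by
  ext a b <;> simp [pm, mul_apply, Prod.fst_sum, Prod.snd_sum]

lemma pm_one : pm (1 : Matrix (Fin d) (Fin d) F) 1 = 1 := by
  ext a b <;> by_cases h : a = b <;> simp [pm, h, one_apply]

lemma pm_eta (M : Matrix (Fin d) (Fin d) (F × F)) : pm (M.map Prod.fst) (M.map Prod.snd) = M := rfl

lemma pm_inj {A B A' B' : Matrix (Fin d) (Fin d) F} (h : pm A B = pm A' B') : A = A' ∧ B = B' :=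
  ⟨congrArg (·.map Prod.fst) h, congrArg (·.map Prod.snd) h⟩

lemma pm_fst (A B : Matrix (Fin d) (Fin d) F) (x : Fin d → F × F) :
    Prod.fst ∘ (pm A B *ᵥ x) = A *ᵥ (Prod.fst ∘ x) :=
  funext fun i => RingHom.map_mulVec (RingHom.fst F F) _ x i

lemma pm_snd (A B : Matrix (Fin d) (Fin d) F) (x : Fin d → F × F) :
    Prod.snd ∘ (pm A B *ᵥ x) = B *ᵥ (Prod.snd ∘ x) :=
  funext fun i => RingHom.map_mulVec (RingHom.snd F F) _ x i

lemma vec_ext {x y : Fin d → F × F} (h1 : Prod.fst ∘ x = Prod.fst ∘ y)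
    (h2 : Prod.snd ∘ x = Prod.snd ∘ y) : x = y :=
  funext fun i => Prod.ext (congrFun h1 i) (congrFun h2 i)

lemma fst_smul_ee (c : F × F) (a : Fin d) : Prod.fst ∘ (c • (ee a : Fin d → F × F)) = c.1 • ee a :=
  funext fun i => by by_cases h : i = a <;> simp [ee_apply, h]

lemma snd_smul_ee (c : F × F) (a : Fin d) : Prod.snd ∘ (c • (ee a : Fin d → F × F)) = c.2 • ee a :=
  funext fun i => by by_cases h : i = a <;> simp [ee_apply, h]

lemma pr2_mulVec (M : Matrix (Fin d) (Fin d) F) (u w : Fin d → F) :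
    pr2 (M *ᵥ u) w = pr2 u (fl M *ᵥ w) := by
  rw [pr2, pr2, dotProduct_comm, dotProduct_mulVec, dotProduct_comm]
  congr 1
  ext a
  simp only [fl, vecMul, mulVec, dotProduct, of_apply, Fin.rev_rev]
  exact Fintype.sum_equiv Fin.revPerm _ _ fun k => by simp [mul_comm]

lemma pr2_ee (a : Fin d) (w : Fin d → F) : pr2 (ee a) w = w a.rev := by simp [pr2, ee]

/-- the action on the natural module and its dual -/
def rho : SLm m F →* Matrix (Fin (m + 1)) (Fin (m + 1)) (F × F) where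
  toFun g := pm g.1 (fl g⁻¹.1)
  map_one' := by
    rw [inv_one]
    exact (congrArg (pm 1) fl_one).trans pm_one
  map_mul' g k := by
    rw [← pm_mul, ← fl_mul, _root_.mul_inv_rev]
    rfl

lemma rho_apply (g : SLm m F) (a b : Fin (m + 1)) : rho g a b = (g.1 a b, g⁻¹.1 b.rev a.rev) := rfl

lemma fl_inv (g : SLm m F) : fl g.1 * fl g⁻¹.1 = 1 := by
  rw [← fl_mul, show g⁻¹.1 * g.1 = 1 from congrArg Subtype.val (inv_mul_cancel g), fl_one]

lemma fl_inv' (g : SLm m F) : fl g⁻¹.1 * fl g.1 = 1 := mul_eq_one_comm.1 (fl_inv g)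

lemma rho_tx {a b : Fin (m + 1)} (h : a ≠ b) (c : F) :
    rho (tx h c) = 1 + single a b (c, 0) + single b.rev a.rev (0, -c) := by
  ext i j <;> simp only [rho_apply, tx_inv, tx_apply, Matrix.add_apply, one_apply, single_apply,
    Prod.fst_add, Prod.snd_add, apply_ite Prod.fst, apply_ite Prod.snd, Prod.fst_one, Prod.fst_zero,
    Prod.snd_one, Prod.snd_zero, ite_self, add_zero, Fin.rev_eq_iff, Fin.rev_rev]
  · simp only [eq_comm]
  · exact congrArg₂ _ (if_congr eq_comm rfl rfl) (if_congr (by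
      constructor <;> rintro ⟨rfl, rfl⟩ <;> simp) rfl rfl)

lemma mon1 {n : SLm m F} {w : Equiv.Perm (Fin (m + 1))} (hn : Mon n w) : Mon1 n.1 w := fun a =>
  ⟨Units.mk0 _ (mon_ne hn a), funext fun i => by
    by_cases h : i = w a
    · simp [mulVec_ee, h, ee_self]
    · simp [mulVec_ee, ee_ne h, mon_eq hn h]⟩

lemma zl (hm : 0 < m) : (0 : Fin (m + 1)) ≠ Fin.last m := fun e => hm.ne (congrArg Fin.val e)

variable [Finite F]

lemma rho_mon {n : SLm m F} {w : Equiv.Perm (Fin (m + 1))} (hn : Mon n w)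
    (hw : ∀ a, w a.rev = (w a).rev) (a : Fin (m + 1)) : n⁻¹.1 a.rev (w a).rev ≠ 0 ∧
      rho n *ᵥ ee a = (n.1 (w a) a, n⁻¹.1 a.rev (w a).rev) • ee (w a) := by
  refine ⟨by simpa [← hw] using mon_ne (mon_inv hn) (w a).rev, funext fun i => ?_⟩
  by_cases h : i = w a
  · simp [mulVec_ee, h, ee_self, rho_apply]
  · rw [mulVec_ee, rho_apply, mon_eq hn h, mon_eq (mon_inv hn) fun e => h (Fin.rev_injective (by
      rw [← hw, e]; simp))]
    simp [ee_ne h]

variable (F m) in
/-- the datum -/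
noncomputable def slD (hm : 0 < m) : Dat (SLm m F) (F × F) F (m + 1) where
  ρ := rho
  σ := RingEquiv.prodComm
  J := of fun a b => if b = a.rev then 1 else 0
  sing x := pr2 (Prod.fst ∘ x) (Prod.snd ∘ x) = 0
  B := BU m F
  N := NM m F
  U := UU m F
  nd i := if h : i < m then
    (exists_mon (Equiv.swap (⟨i, h⟩ : Fin m).castSucc (⟨i, h⟩ : Fin m).succ)).choose else 1
  rk := m
  m := (m + 1) / 2
  z := 0
  ι := (RingHom.id F).prod (RingHom.id F)
  x t := tx (zl hm) t
  N0 := single 0 (Fin.last m) (1, -1)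
  n0 := (exists_mon Fin.revPerm).choose
  lty := True
  dty := False
  quad := False

variable (hm : 0 < m)

lemma slD_β (x y : Fin (m + 1) → F × F) : (slD F m hm).β x y =
    (pr2 (Prod.fst ∘ y) (Prod.snd ∘ x), pr2 (Prod.fst ∘ x) (Prod.snd ∘ y)) := by
  ext
  · simp only [Dat.β, slD, pr2, dotProduct, mulVec, Prod.fst_sum]
    exact Fintype.sum_equiv Fin.revPerm _ _ fun k => by simp [mul_comm]
  · simp [Dat.β, slD, pr2, dotProduct, mulVec, Prod.snd_sum]

lemma slD_mid {a : Fin (m + 1)} : (slD F m hm).Mid a ↔ a.rev = a := by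
  have := a.2
  simp only [Dat.Mid, slD, Fin.ext_iff, Fin.val_rev]
  omega

lemma slD_nd (i : Fin m) : Mon ((slD F m hm).nd i) (Equiv.swap i.castSucc i.succ) := by
  simp only [slD, dif_pos i.2]
  exact (exists_mon (F := F) _).choose_spec

lemma slD_n0 : Mon (slD F m hm).n0 Fin.revPerm := (exists_mon (F := F) _).choose_spec

lemma slD_sba {p : ℕ} [hp : Fact p.Prime] [CharP F p] :
    SBA p (BU m F) (NM m F) (UU m F) (slD F m hm).S where
  toSB := sb_sub (sl_SB hm) (by
      rintro _ ⟨i, hi, rfl⟩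
      exact ⟨⟨i, hi⟩, slD_nd hm ⟨i, hi⟩⟩) fun s ⟨i, hi⟩ => ⟨_, ⟨i, i.2, rfl⟩, mem_T.2 (by
        simpa using mon_mul (mon_inv (slD_nd hm i)) hi)⟩
  prime := hp.out
  comm x h1 h2 y h3 h4 := sl_ext fun i j => by
    have hx := mem_T.1 ⟨h1, h2⟩
    have hy := mem_T.1 ⟨h3, h4⟩
    by_cases h : i = j
    · rw [h, up_mul_diag h1 h3, up_mul_diag h3 h1, mul_comm]
    · rw [mon_eq (mon_mul hx hy) h, mon_eq (mon_mul hy hx) h]

lemma slD_mon {n : SLm m F} {w : Equiv.Perm (Fin (m + 1))} (hn : Mon n w)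
    (hw : ∀ a, w a.rev = (w a).rev) (hw' : ∀ a, a.rev = a → w a = a) :
    (slD F m hm).Mon (rho n) w := by
  refine ⟨⟨hw, fun a ha => hw' a ((slD_mid hm).1 ha)⟩, fun a _ => ?_, fun a i ha hi => ?_⟩
  · obtain ⟨h1, h2⟩ := rho_mon hn hw a
    exact ⟨(Prod.isUnit_iff.2 ⟨(mon_ne hn a).isUnit, h1.isUnit⟩).unit, h2⟩
  · rw [← mulVec_ee (rho n), (rho_mon hn hw a).2, hw' a ((slD_mid hm).1 ha), Pi.smul_apply,
      ee_ne (by rintro rfl; exact hi ha), smul_zero]

include hm in
lemma slD_span : Submodule.span (F × F) (Set.range (rho (F := F) (m := m))) = ⊤ := by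
  have h0 : Submodule.span (F × F) (Set.range (rho (F := F) (m := m))) =
      (Algebra.adjoin (F × F) (Set.range (rho (F := F) (m := m)))).toSubmodule := by
    rw [Algebra.adjoin_eq_span, ← MonoidHom.coe_mrange, Submonoid.closure_eq]
  rw [h0]
  generalize hA : Algebra.adjoin (F × F) (Set.range (rho (F := F) (m := m))) = A
  have h1 : ∀ (a b : Fin (m + 1)) (h : a ≠ b) (r : F × F),
      r • (single a b ((1 : F), (0 : F)) + single b.rev a.rev (0, -1)) ∈ A := fun a b h r => by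
    have : rho (tx h (1 : F)) ∈ A := hA ▸ Algebra.subset_adjoin ⟨_, rfl⟩
    simpa [rho_tx, add_assoc] using A.smul_mem (sub_mem this (one_mem A)) r
  have h2 : ∀ (a b : Fin (m + 1)) (h : a ≠ b) (r : F × F), single a b r ∈ A := fun a b h r => by
    have := add_mem (h1 a b h (r.1, 0)) (h1 b.rev a.rev (Fin.rev_injective.ne h.symm) (0, -r.2))
    simpa [add_assoc, ← single_add, show ((0 : F), (0 : F)) = 0 from rfl] using this
  refine eq_top_iff.2 fun M _ => ?_
  rw [matrix_eq_sum_single M]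
  refine sum_mem fun a _ => sum_mem fun b _ => ?_
  by_cases h : a = b
  · have : Nontrivial (Fin (m + 1)) := Fin.nontrivial_iff_two_le.2 (by omega)
    obtain ⟨c, hc⟩ := exists_ne a
    simpa [h] using mul_mem (h2 a c hc.symm (M a b)) (h2 c a hc 1)
  · exact h2 a b h _

end Vale.Agent.P183BR
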