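import Vale.Agent.P183BR.SLb

/-!
The datum of the special linear group satisfies the axioms.
-/

set_option autoImplicit false
set_option linter.all false

namespace Vale.Agent.P183BR

open Matrix Subgroup Module Vale.Agent.P183M Vale.Agent.P240.H195 Vale.Agent.P183XC
  Vale.Agent.P183K.Lift Vale.Agent.P183CR

variable {F : Type} [Field F] {m : ℕ}

lemma rho_fst (g : SLm m F) (x : Fin (m + 1) → F × F) :
    Prod.fst ∘ (rho g *ᵥ x) = g.1 *ᵥ (Prod.fst ∘ x) := pm_fst _ _ _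

lemma rho_snd (g : SLm m F) (x : Fin (m + 1) → F × F) :
    Prod.snd ∘ (rho g *ᵥ x) = fl g⁻¹.1 *ᵥ (Prod.snd ∘ x) := pm_snd _ _ _

lemma pr2_inv (g : SLm m F) (u w : Fin (m + 1) → F) : pr2 (g.1 *ᵥ u) (fl g⁻¹.1 *ᵥ w) = pr2 u w := by
  rw [pr2_mulVec, mulVec_mulVec, fl_inv, one_mulVec]

lemma fst_ee (a : Fin (m + 1)) : Prod.fst ∘ (ee a : Fin (m + 1) → F × F) = ee a := by
  simpa using fst_smul_ee (1 : F × F) a

lemma snd_ee (a : Fin (m + 1)) : Prod.snd ∘ (ee a : Fin (m + 1) → F × F) = ee a := by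
  simpa using snd_smul_ee (1 : F × F) a

lemma tx_pow {p : ℕ} [CharP F p] {a b : Fin (m + 1)} (h : a ≠ b) (c : F) : tx h c ^ p = 1 := by
  have : ∀ k : ℕ, tx h c ^ k = tx h (k * c) := fun k => by
    induction k with
    | zero => simp [tx_zero]
    | succ k ih => rw [pow_succ, ih, tx_mul_tx, Nat.cast_succ, add_one_mul]
  simp [this, tx_zero]

lemma fix_iff (ε : F × F) (g : SLm m F) : rho g *ᵥ (ε • ee 0) = ε • ee 0 ↔
    (ε.1 ≠ 0 → g.1 *ᵥ ee 0 = ee 0) ∧ (ε.2 ≠ 0 → ∀ y, (g.1 *ᵥ y) (Fin.last m) = y (Fin.last m)) := by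
  have h1 : ∀ (c : F) (x y : Fin (m + 1) → F), c • x = c • y ↔ (c ≠ 0 → x = y) := fun c x y =>
    ⟨fun e hc => smul_right_injective _ hc e, fun e => by
      by_cases hc : c = 0
      · simp [hc]
      · rw [e hc]⟩
  have h2 : fl g⁻¹.1 *ᵥ ee 0 = ee 0 ↔ ∀ y, (g.1 *ᵥ y) (Fin.last m) = y (Fin.last m) := by
    have h3 : ∀ y : Fin (m + 1) → F, pr2 y (ee 0) = y (Fin.last m) := fun y => by
      simp [pr2, dotProduct, ee_apply, Fin.rev_eq_iff]
    refine ⟨fun e y => by rw [← h3 y, ← pr2_inv g, e, h3], fun e => funext fun a => ?_⟩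
    obtain ⟨a, rfl⟩ := Fin.rev_surjective a
    rw [← pr2_ee a (_ *ᵥ _), ← pr2_ee a (ee 0), ← pr2_mulVec, h3, h3, ← e (_ *ᵥ _), mulVec_mulVec,
      show g.1 * g⁻¹.1 = 1 from congrArg Subtype.val (mul_inv_cancel g), one_mulVec]
  rw [← h2, ← h1, ← h1, ← mulVec_smul, ← mulVec_smul, ← fst_smul_ee, ← snd_smul_ee, ← rho_fst,
    ← rho_snd]
  exact ⟨fun e => ⟨congrArg _ e, congrArg _ e⟩, fun e => vec_ext e.1 e.2⟩

lemma norm_aux {A B A' B' : Matrix (Fin (m + 1)) (Fin (m + 1)) F} (e1 : A * A' = 1)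
    (e2 : B * B' = 1) (e3 : fl A * B = 1) (y : SLm m F) :
    ∃ y', rho y' = pm A B * rho y * pm A' B' := by
  have k3 : fl A' * fl A = 1 := by rw [← fl_mul, e1, fl_one]
  have k4 : B = fl A' := by rw [← mul_one (fl _), ← e3, ← mul_assoc, k3, one_mul]
  have k5 : B' = fl A := by rw [← mul_one (fl _), ← e2, ← mul_assoc, e3, one_mul]
  have k6 : ∀ y : SLm m F, ∃ y' : SLm m F, y'.1 = A * y.1 * A' := fun y => ⟨⟨_, by
    rw [det_mul, det_mul, y.2, mul_one, ← det_mul, e1, det_one]⟩, rfl⟩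
  obtain ⟨u, hu⟩ := k6 y
  obtain ⟨v, hv⟩ := k6 y⁻¹
  have k7 : u⁻¹ = v := inv_eq_of_mul_eq_one_right (Subtype.ext (show u.1 * v.1 = 1 by
    rw [hu, hv, mul_assoc, mul_assoc _ y⁻¹.1, ← mul_assoc A', mul_eq_one_comm.1 e1, one_mul,
      mul_assoc, ← mul_assoc y.1, show y.1 * y⁻¹.1 = 1 from congrArg Subtype.val (mul_inv_cancel y),
      one_mul, e1]))
  refine ⟨u, ?_⟩
  show pm u.1 (fl u⁻¹.1) = pm A B * pm y.1 (fl y⁻¹.1) * pm A' B'
  rw [k7, hu, hv, ← pm_mul, ← pm_mul, k4, k5, fl_mul, fl_mul, mul_assoc (fl _)]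

variable [Finite F] {p : ℕ} [hp : Fact p.Prime] [CharP F p]

theorem slD_cd (hm : 0 < m) (h2 : 2 ≤ m) : CD p (slD F m hm) where
  sba := slD_sba hm
  long := (slD_sba (p := p) hm).toSBP.long_of_opp ⟨_, slD_n0 hm⟩ fun x hx hwx => sl_ext fun i j => by
    rw [sl_one]
    rcases lt_trichotomy i j with h1 | rfl | h1
    · rw [if_neg h1.ne]
      exact by_contra fun e => (mon_conj_ne (slD_n0 hm) x i j).2 e (hwx.1 _ _ (Fin.rev_lt_rev.2 h1))
    · rw [if_pos rfl, hx.2]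
    · rw [if_neg h1.ne', hx.1 i j h1]
  char := Prod.charP F F p
  red := inferInstance
  sq _ := rfl
  fix r := ⟨fun e => ⟨r.1, Prod.ext rfl (congrArg Prod.fst e)⟩, by rintro ⟨t, rfl⟩; rfl⟩
  tr _ := ⟨(1, 0), Prod.ext (add_zero _) (zero_add _)⟩
  eps := ⟨1, Or.inl rfl, fun x y => by rw [slD_β, slD_β, one_mul]; rfl⟩
  nondeg := isUnit_det_of_left_inverse (B := (slD F m hm).J) (by
    refine Matrix.ext fun a b => ?_
    rw [mul_apply, Finset.sum_eq_single a.rev (fun j _ hj => by simp [slD, hj]) (by simp)]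
    simp [slD, one_apply, eq_comm])
  inv g x y := by
    simp only [slD_β]
    exact congrArg₂ _ (by rw [← pr2_inv g (Prod.fst ∘ y), ← rho_fst, ← rho_snd]; rfl)
      (by rw [← pr2_inv g (Prod.fst ∘ x), ← rho_fst, ← rho_snd]; rfl)
  sing_smul c x hx := by
    show pr2 (c.1 • (Prod.fst ∘ x)) (c.2 • (Prod.snd ∘ x)) = 0
    rw [pr2, smul_dotProduct, show (fun a => (c.2 • (Prod.snd ∘ x)) (Fin.rev a)) =
      c.2 • fun a => (Prod.snd ∘ x) (Fin.rev a) from rfl, dotProduct_smul]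
    rw [show _ ⬝ᵥ _ = _ from hx, smul_zero, smul_zero]
  sing_add x y hx hy e := by
    rw [slD_β] at e
    show (Prod.fst ∘ x + Prod.fst ∘ y) ⬝ᵥ ((fun a => (Prod.snd ∘ x) (Fin.rev a)) +
      fun a => (Prod.snd ∘ y) (Fin.rev a)) = 0
    rw [add_dotProduct, dotProduct_add, dotProduct_add, show _ ⬝ᵥ _ = _ from hx,
      show _ ⬝ᵥ _ = _ from hy, zero_add, add_zero]
    exact (congrArg₂ _ (congrArg Prod.snd e) (congrArg Prod.fst e)).trans (add_zero (0 : F))
  sing_self x hx := by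
    rw [slD_β]
    exact Prod.ext hx hx
  sing_inv g x hx := by
    show pr2 (Prod.fst ∘ (rho g *ᵥ x)) (Prod.snd ∘ (rho g *ᵥ x)) = 0
    rw [rho_fst, rho_snd, pr2_inv]
    exact hx
  sing_of _ x e := by
    rw [slD_β] at e
    exact congrArg Prod.fst e
  quadr := False.elim
  z0 := rfl
  le_d := Nat.mul_div_le _ 2
  d_le := by simp only [slD]; omega
  d_le' _ := by simp only [slD]; omega
  sing_ee a ha := by
    show pr2 (Prod.fst ∘ ee a) (Prod.snd ∘ ee a) = 0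
    rw [fst_ee, snd_ee, pr2_ee, ee_ne (mt (slD_mid hm).2 ha)]
  J_zero a b h _ := if_neg h
  J_unit a _ := by simp [slD]
  up u hu := ⟨⟨fun i j h => Prod.ext (hu.1 i j h) ((inv_mem hu).1 _ _ (Fin.rev_lt_rev.2 h)),
    fun i => Prod.ext (hu.2 i) ((inv_mem hu).2 _)⟩, fun i j hi hj h => absurd (by
      have := i.2
      have := j.2
      simp only [slD_mid, Fin.ext_iff, Fin.val_rev] at hi hj ⊢
      omega) h⟩
  pinj a b _ _ e := Subtype.ext (pm_inj e).1
  pts x hx := by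
    obtain ⟨g, r, h3, h4⟩ := pair_sl hm (w := fun a => (x a.rev).2) (u := Prod.fst ∘ x)
      ((dotProduct_comm _ _).trans hx)
    have h5 : fl g.1 *ᵥ (Prod.snd ∘ x) = (fl g.1 *ᵥ (Prod.snd ∘ x)) 0 • ee 0 := funext fun a => by
      by_cases ha : a = 0
      · simp [ha, ee_self]
      · obtain ⟨a, rfl⟩ := Fin.rev_surjective a
        rw [Pi.smul_apply, ee_ne ha, smul_zero, ← pr2_ee a (_ *ᵥ _), ← pr2_mulVec]
        exact (dotProduct_comm _ _).trans (h4 _ fun e => ha (by simp [e]))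
    refine ⟨(r, (fl g.1 *ᵥ (Prod.snd ∘ x)) 0), g, ?_⟩
    show x = _ • rho g *ᵥ ee 0
    rw [← mulVec_smul]
    refine vec_ext ?_ ?_
    · rw [rho_fst, fst_smul_ee, mulVec_smul, h3]
    · rw [rho_snd, snd_smul_ee, ← h5, mulVec_mulVec, fl_inv', one_mulVec]
  x_mem t := ⟨tx_up (Fin.pos_iff_ne_zero.2 (zl hm).symm) t, tx_diag (zl hm) t⟩
  x_comm t u hu := sl_ext fun i j => by
    show (u * tx (zl hm) t).1 i j = (tx (zl hm) t * u).1 i j
    rw [mul_tx_apply, tx_mul_apply]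
    congr 1
    by_cases h3 : j = Fin.last m <;> by_cases h4 : i = 0
    · simp [h3, h4, hu.2]
    · simp [h3, h4, hu.1 i 0 (Fin.pos_iff_ne_zero.2 h4)]
    · simp [h3, h4, hu.1 _ j (Fin.lt_last_iff_ne_last.2 h3)]
    · simp [h3, h4]
  x_eq t := by
    show rho (tx (zl hm) t) = 1 + (t, t) • single 0 (Fin.last m) (1, -1)
    simp [rho_tx, add_assoc, ← single_add]
  x_gen := ncl_tx (zl hm)
  shape := Or.inl ⟨id, ⟨(1, -1), (1, -1), by simp [Prod.ext_iff], by simp [Prod.ext_iff]⟩, by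
    have : (fun a => (slD F m hm).σ (ee 0 a)) ᵥ* (slD F m hm).J = ee (Fin.last m) := by
      rw [show (fun a => (slD F m hm).σ (ee 0 a)) = ee 0 from map_ee (slD F m hm).σ.toRingHom 0,
        ee, single_one_vecMul]
      exact funext fun j => by simp [slD, ee_apply]
    show single 0 (Fin.last m) (1, -1) = ((1, -1) : F × F) • vecMulVec (ee 0) (_ ᵥ* _)
    erw [this]
    rw [ee, ee, ← single_eq_single_vecMulVec_single, smul_single, smul_eq_mul, mul_one]⟩
  span := slD_span hm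
  norm h h' e1 e2 e3 _ y := by
    have k1 := pm_inj (((pm_mul (h.map Prod.fst) (h.map Prod.snd) (h'.map Prod.fst)
      (h'.map Prod.snd)).trans e1).trans pm_one.symm)
    refine norm_aux k1.1 k1.2 (ext_ee fun b => funext fun a => ?_) y
    have := congrArg Prod.snd (e3 (ee a.rev) (ee b))
    simp only [slD_β] at this
    rw [← pm_eta h, pm_fst, pm_snd, fst_ee, snd_ee, pr2_mulVec, mulVec_mulVec, pr2_ee, pr2_ee,
      a.rev_rev] at this
    rw [this, one_mulVec]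
  rootel a b ha hb h3 h4 c := by
    have h5 : b.rev ≠ a.rev := Fin.rev_injective.ne h3.symm
    have h6 : b ≠ b.rev := fun e => hb ((slD_mid hm).2 e.symm)
    have h7 : a.rev ≠ a := mt (slD_mid hm).2 ha
    have h8 : Commute (tx h3 c.1) (tx h5 (-c.2)) := Subtype.ext (by
      show (1 + single a b c.1) * (1 + single b.rev a.rev (-c.2)) =
        (1 + single b.rev a.rev (-c.2)) * (1 + single a b c.1)
      simp only [mul_add, add_mul, mul_one, one_mul, single_mul_single_of_ne _ _ _ _ h6,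
        single_mul_single_of_ne _ _ _ _ h7]
      abel)
    refine ⟨tx h3 c.1 * tx h5 (-c.2), (-c.2, -c.1), ⟨1, by
      rw [pow_one, h8.mul_pow, tx_pow, tx_pow, one_mul]⟩, ?_⟩
    show rho _ = _
    rw [map_mul, rho_tx, rho_tx, a.rev_rev, b.rev_rev, show single a b c =
      single a b (c.1, 0) + single a b (0, - -c.2) by simp [← single_add], show single b.rev a.rev
        (-c.2, -c.1) = single b.rev a.rev (-c.2, 0) + single b.rev a.rev (0, -c.1) by
          simp [← single_add]]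
    simp only [mul_add, add_mul, mul_one, one_mul, single_mul_single_of_ne _ _ _ _ h6,
      single_mul_single_of_ne _ _ _ _ h7, single_mul_single_of_ne _ _ _ _ h3.symm,
      single_mul_single_of_ne _ _ _ _ h5.symm]
    abel
  refl a b ha hb h3 h4 := by
    have h6 : b.rev ≠ b := mt (slD_mid hm).2 hb
    have h7 : a.rev ≠ a := mt (slD_mid hm).2 ha
    have h8 : a.rev ≠ b := fun e => h4 (by rw [← e, a.rev_rev])
    obtain ⟨n, hn⟩ := exists_mon (F := F) (rf a b)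
    refine ⟨n, ⟨_, hn⟩, slD_mon hm hn (fun k => ?_) fun k hk => ?_⟩
    · have := (Equiv.Perm.disjoint_swap_swap (x := a) (y := b) (z := a.rev) (t := b.rev) (by
        simp [h3, h4, h6.symm, h7.symm, h8.symm])).commute.eq
      conv_rhs => rw [rf, this]
      simp only [rf, Equiv.Perm.mul_apply, Fin.rev_injective.map_swap, Fin.rev_rev]
    · have k1 : k ≠ a := fun e => h7 (e ▸ hk)
      have k2 : k ≠ b := fun e => h6 (e ▸ hk)
      rw [rf, Equiv.Perm.mul_apply, ← hk, Fin.rev_injective.swap_apply,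
        Equiv.swap_apply_of_ne_of_ne k1 k2, hk, Equiv.swap_apply_of_ne_of_ne k1 k2]
  tor ε _ g hg := by
    classical
    obtain ⟨h3, h4⟩ := (fix_iff ε g).1 hg
    refine tor_sl (H := _) (z := 0) (l := Fin.last m) (c1 := ε.1 ≠ 0) (c2 := ε.2 ≠ 0)
      (fun v f h k1 k2 => ?_) (Finset.univ.filter fun j => ε.1 ≠ 0 ∧ j = 0) g (by simp)
      (fun j hj => ?_) h4
    · refine Subgroup.subset_closure ⟨⟨1, by rw [pow_one, tv_pow_char]⟩,
        (fix_iff ε _).2 ⟨fun c => ?_, fun c y => ?_⟩⟩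
      · rw [tv_val, add_mulVec, vecMulVec_mulVec, ee, dotProduct_single, k1 c, one_mulVec]
        simp
      · simp [add_mulVec, vecMulVec_mulVec, k2 c]
    · obtain ⟨c, rfl⟩ := (Finset.mem_filter.1 hj).2
      exact h3 c
  surj c := by
    have h3 : (0 : Fin (m + 1)) ≠ ⟨1, by omega⟩ := by simp [Fin.ext_iff]
    have h4 : (⟨1, by omega⟩ : Fin (m + 1)) ≠ Fin.last m := by
      simp only [Ne, Fin.ext_iff, Fin.val_last]
      omega
    have c1 := (Prod.isUnit_iff.1 c.isUnit).1.ne_zero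
    have c2 := (Prod.isUnit_iff.1 c.isUnit).2.ne_zero
    have k : ∀ {i j : Fin (m + 1)} (h : i ≠ j) (x : F) (hx : x ≠ 0),
        Mon (SpecialLinearGroup.diag2n h x hx) 1 := fun h x hx i j e => by_contra fun e' =>
      e (diagonal_apply_ne _ e')
    have k1 := mem_T' (k h3 _ c1)
    have k2 := mem_T' (k h4 _ c2)
    refine ⟨_, up_mul k1 k2, ((rho_mon (mon_mul (k h3 _ c1) (k h4 _ c2)) (fun _ => rfl) 0).2).trans ?_⟩
    show (_, _) • ee 0 = _
    simp only [Equiv.Perm.mul_apply, Equiv.Perm.one_apply, Fin.rev_zero]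
    rw [up_inv_diag (up_mul k1 k2), up_mul_diag k1 k2, up_mul_diag k1 k2]
    simp [SpecialLinearGroup.diag2n_coe, h3, h4.symm, zl hm, (zl hm).symm, slD]

theorem slD_cdl (hm : 0 < m) (h2 : 2 ≤ m) : CDL p (slD F m hm) where
  toCD := slD_cd hm h2
  il := trivial
  swap _ := rfl
  rk_eq := rfl
  up' _ _ h := h
  mon _ h := h.imp fun _ => mon1
  mon_T _ h1 h2 := mon1 (mem_T.1 ⟨h1, h2⟩)
  mon_nd a b h := by
    have := mon1 (slD_nd (F := F) hm ⟨a, by omega⟩)
    rwa [show (⟨a, _⟩ : Fin m).succ = b from Fin.ext h.symm] at this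
  refl1 a b := (exists_mon (F := F) (Equiv.swap a b)).imp fun _ h => ⟨⟨_, h⟩, mon1 h⟩
  mon_n0 := mon1 (slD_n0 hm)
  gen := gen_U fun a b h c => Subgroup.subset_closure ⟨⟨tx_up h c, tx_diag _ c⟩, a, b, h, fun i j h1 h2 =>
    (tx_apply h.ne c i j).trans (by rw [if_neg h1, if_neg h2, add_zero])⟩
  witt := witt_sl

end Vale.Agent.P183BR
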